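import Vale.Agent.P321.Lit
import Vale.Agent.P321.Sup.Superpoly

open scoped NNReal
open Filter

namespace Vale.Agent.Results.P321.NoPolynomialBound

open Vale.Agent.P321 Vale.Agent.P321.Lit

theorem result (q : ℝ≥0) (hq0 : 0 < q) (hq1 : q < 1) :
    (∀ k : ℕ, Tendsto (fun n : ℕ => (sampleComplexity q hq1.le n : ℝ) / (n : ℝ) ^ k)
      atTop atTop) ∧
    ¬ ∃ P : Polynomial ℝ, ∀ n : ℕ, (sampleComplexity q hq1.le n : ℝ) ≤ P.eval (n : ℝ) := by
  have h : ∀ C : ℝ, 0 ≤ C → ∃ c : ℝ, 0 < c ∧ ∀ n : ℕ, 1 ≤ n →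
      c * (n : ℝ) ^ C ≤ (sampleComplexity q hq1.le n : ℝ) := by
    intro C hC
    obtain ⟨c, hc, h⟩ := Vale.Agent.P321.Sup.superpoly (q := (q : ℝ)) (by exact_mod_cast hq0)
      (by exact_mod_cast hq1) hC
    refine ⟨c, hc, fun n hn => ?_⟩
    rw [sampleComplexity_eq]
    exact h n hn
  exact ⟨fun k => tendsto_of_pow_le h k, no_poly_of_tendsto fun k => tendsto_of_pow_le h k⟩

end Vale.Agent.Results.P321.NoPolynomialBound
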