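import Vale.Agent.P321.Final

namespace Vale.Agent.Results.P321.SevenQuarters

open Vale.Agent.P321

theorem result (q : ℝ) (hq0 : 0 < q) (hq1 : q < 1) (ε : ℝ) (hε : 0 < ε) :
    ∃ c : ℝ, 0 < c ∧ ∀ n : ℕ, 1 ≤ n → c * (n : ℝ) ^ ((7 : ℝ) / 4 - ε) ≤ (T q n : ℝ) := by
  obtain ⟨k, hk5, hkε⟩ : ∃ k : ℕ, 5 ≤ k ∧ 11 / (4 * ε) ≤ (k : ℝ) := by
    refine ⟨max 5 ⌈11 / (4 * ε)⌉₊, le_max_left _ _, ?_⟩
    refine (Nat.le_ceil _).trans ?_
    exact_mod_cast le_max_right _ _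
  have hk0 : (0 : ℝ) < k := by
    have : (5 : ℝ) ≤ k := by exact_mod_cast hk5
    linarith
  obtain ⟨c, hc, u₀, hu₀, hT⟩ := lower_scale hq0 hq1 k hk5
  obtain ⟨e, he⟩ : ∃ e : ℝ, e = 7 / 4 - 11 / (4 * k) := ⟨_, rfl⟩
  have he1 : 7 / 4 - ε ≤ e := by
    rw [he]
    have h1 : 11 / (4 * (k : ℝ)) ≤ ε := by
      rw [div_le_iff₀ (by positivity)] at hkε ⊢
      linarith
    linarith
  have hk5r : (5 : ℝ) ≤ k := by exact_mod_cast hk5
  have he0 : 0 ≤ e := by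
    rw [he, sub_nonneg, div_le_div_iff₀ (by positivity) (by norm_num)]
    linarith
  have hke : 4 * (k : ℝ) * e = ((7 * k - 11 : ℕ) : ℝ) := by
    rw [he, Nat.cast_sub (by omega)]
    push_cast
    field_simp
  have hmono : ∀ n : ℕ, 1 ≤ n → (n : ℝ) ^ ((7 : ℝ) / 4 - ε) ≤ (n : ℝ) ^ e := by
    intro n hn
    exact Real.rpow_le_rpow_of_exponent_le (by exact_mod_cast hn) he1
  obtain ⟨n₁, hn₁⟩ : ∃ n₁ : ℕ, n₁ = 30 * u₀ ^ (4 * k) := ⟨_, rfl⟩
  have hn₁1 : 1 ≤ n₁ := by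
    rw [hn₁]
    have := Nat.one_le_pow (4 * k) u₀ hu₀
    omega
  have hn₁r : (0 : ℝ) < (n₁ : ℝ) := by exact_mod_cast hn₁1
  obtain ⟨B, hB⟩ : ∃ B : ℝ, B = (n₁ : ℝ) ^ e := ⟨_, rfl⟩
  have hB0 : 0 < B := by rw [hB]; exact Real.rpow_pos_of_pos hn₁r _
  obtain ⟨G, hG⟩ : ∃ G : ℝ, G = (30 : ℝ) ^ e * 2 ^ (7 * k - 11) := ⟨_, rfl⟩
  have hG0 : 0 < G := by
    rw [hG]
    have := Real.rpow_pos_of_pos (show (0 : ℝ) < 30 by norm_num) e
    positivity
  refine ⟨min (c / G) (1 / B), lt_min (by positivity) (by positivity), ?_⟩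
  intro n hn
  have hnr : (0 : ℝ) ≤ n := Nat.cast_nonneg n
  have hpow0 : 0 ≤ (n : ℝ) ^ e := Real.rpow_nonneg hnr _
  have hmin0 : 0 ≤ min (c / G) (1 / B) := le_min (by positivity) (by positivity)
  refine (mul_le_mul_of_nonneg_left (hmono n hn) hmin0).trans ?_
  rcases lt_or_ge n n₁ with hlt | hge
  · have h1 : (n : ℝ) ^ e ≤ B := by
      rw [hB]
      exact Real.rpow_le_rpow hnr (by exact_mod_cast hlt.le) he0
    have h2 : (1 : ℝ) ≤ (T q n : ℝ) := by exact_mod_cast one_le_T hq0 hq1 hn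
    calc min (c / G) (1 / B) * (n : ℝ) ^ e ≤ (1 / B) * B :=
          mul_le_mul (min_le_right _ _) h1 hpow0 (by positivity)
      _ = 1 := by field_simp
      _ ≤ _ := h2
  · obtain ⟨u, hu⟩ : ∃ u : ℕ, u = Nat.findGreatest (fun u => 30 * u ^ (4 * k) ≤ n) n := ⟨_, rfl⟩
    have hself : ∀ v : ℕ, v ≤ v ^ (4 * k) := fun v => Nat.le_self_pow (by omega) v
    have hPu₀ : 30 * u₀ ^ (4 * k) ≤ n := by rw [← hn₁]; exact hge
    have hu₀n : u₀ ≤ n := by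
      have := hself u₀
      omega
    have hu1 : u₀ ≤ u := by rw [hu]; exact Nat.le_findGreatest hu₀n hPu₀
    have hu2 : 30 * u ^ (4 * k) ≤ n := by
      rw [hu]
      exact Nat.findGreatest_spec (P := fun u => 30 * u ^ (4 * k) ≤ n) hu₀n hPu₀
    have hu3 : n < 30 * (u + 1) ^ (4 * k) := by
      by_contra hcon
      rw [not_lt] at hcon
      have h1 : u + 1 ≤ n := by
        have := hself (u + 1)
        omega
      have h2 : u + 1 ≤ u := by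
        conv_rhs => rw [hu]
        exact Nat.le_findGreatest h1 hcon
      omega
    have hu4 : n ≤ 30 * (2 * u) ^ (4 * k) := by
      have h1 : (u + 1) ^ (4 * k) ≤ (2 * u) ^ (4 * k) := Nat.pow_le_pow_left (by omega) _
      omega
    have hur : (0 : ℝ) ≤ u := Nat.cast_nonneg u
    have hu5 : (n : ℝ) ≤ 30 * (2 * (u : ℝ)) ^ (4 * k) := by exact_mod_cast hu4
    have hu6 : (n : ℝ) ^ e ≤ G * (u : ℝ) ^ (7 * k - 11) := by
      refine (Real.rpow_le_rpow hnr hu5 he0).trans (le_of_eq ?_)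
      rw [Real.mul_rpow (by norm_num) (by positivity), ← Real.rpow_natCast (2 * (u : ℝ)) (4 * k),
        ← Real.rpow_mul (by positivity)]
      push_cast
      rw [hke, Real.rpow_natCast, mul_pow, hG]
      ring
    calc min (c / G) (1 / B) * (n : ℝ) ^ e ≤ (c / G) * (G * (u : ℝ) ^ (7 * k - 11)) :=
          mul_le_mul (min_le_left _ _) hu6 hpow0 (by positivity)
      _ = c * (u : ℝ) ^ (7 * k - 11) := by field_simp
      _ ≤ _ := hT u hu1 n hu2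

end Vale.Agent.Results.P321.SevenQuarters
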