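import Vale.Agent.P321.Sup.Superpoly

namespace Vale.Agent.Results.P321.Superpolynomial

open Vale.Agent.P321 Filter

theorem result (q : ℝ) (hq0 : 0 < q) (hq1 : q < 1) :
    (∀ C : ℝ, ∃ c : ℝ, 0 < c ∧ ∀ n : ℕ, 1 ≤ n → c * (n : ℝ) ^ C ≤ (T q n : ℝ)) ∧
      ¬ ∃ P : Polynomial ℝ, ∀ n : ℕ, (T q n : ℝ) ≤ P.eval (n : ℝ) := by
  have main : ∀ C : ℝ, ∃ c : ℝ, 0 < c ∧ ∀ n : ℕ, 1 ≤ n → c * (n : ℝ) ^ C ≤ (T q n : ℝ) := by
    intro C
    obtain ⟨c, hc, h⟩ := Sup.superpoly hq0 hq1 (le_max_right C 0)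
    refine ⟨c, hc, fun n hn => le_trans ?_ (h n hn)⟩
    have hn1 : (1 : ℝ) ≤ n := by exact_mod_cast hn
    have := Real.rpow_le_rpow_of_exponent_le hn1 (le_max_left C 0)
    gcongr
  refine ⟨main, ?_⟩
  rintro ⟨P, hP⟩
  obtain ⟨c, hc, h⟩ := main (P.natDegree + 1)
  have hlim : Tendsto (fun x : ℝ => P.eval x / (Polynomial.X ^ (P.natDegree + 1)).eval x)
      atTop (nhds 0) := by
    apply Polynomial.div_tendsto_atTop_zero_of_degree_lt
    rw [Polynomial.degree_X_pow]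
    calc P.degree ≤ (P.natDegree : WithBot ℕ) := Polynomial.degree_le_natDegree
      _ < ((P.natDegree + 1 : ℕ) : WithBot ℕ) := by exact_mod_cast Nat.lt_succ_self _
  have hlim2 := hlim.comp (tendsto_natCast_atTop_atTop (R := ℝ))
  have hev := (hlim2.eventually (gt_mem_nhds hc)).and (eventually_ge_atTop 1)
  obtain ⟨n, hn, hn1⟩ := hev.exists
  have hnpos : (0 : ℝ) < n := by exact_mod_cast hn1
  have h1 : P.eval (n : ℝ) < c * (n : ℝ) ^ (P.natDegree + 1) := by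
    have h2 : P.eval (n : ℝ) / (n : ℝ) ^ (P.natDegree + 1) < c := by
      simpa using hn
    rwa [div_lt_iff₀ (by positivity)] at h2
  have h3 := h n hn1
  have h4 : (n : ℝ) ^ ((P.natDegree : ℝ) + 1) = (n : ℝ) ^ (P.natDegree + 1) := by
    rw [← Real.rpow_natCast]
    push_cast
    rfl
  rw [h4] at h3
  linarith [hP n]

end Vale.Agent.Results.P321.Superpolynomial
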